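import Mathlib

namespace Vale.Agent.Lib.P100

open Filter Topology


section line
variable {E : Type*} [NormedAddCommGroup E] [NormedSpace ℝ E]

theorem hasDerivAt_line (x v : E) (t : ℝ) : HasDerivAt (fun t : ℝ => x + t • v) v t := by
  simpa using ((hasDerivAt_id t).smul_const v).const_add x

theorem iteratedFDeriv_two_line (w : E → ℝ) (x v : E) (hw : ContDiffAt ℝ 2 w x) :
    iteratedFDeriv ℝ 2 w x ![v, v] = deriv (deriv (fun t : ℝ => w (x + t • v))) 0 := by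
  rw [iteratedFDeriv_two_apply]
  simp only [Matrix.cons_val_zero, Matrix.cons_val_one]
  have h1 : ∀ᶠ y in 𝓝 x, DifferentiableAt ℝ w y := by
    filter_upwards [hw.eventually (by simp)] with y hy
    exact hy.differentiableAt (by norm_num)
  have hline : ContinuousAt (fun t : ℝ => x + t • v) 0 := by fun_prop
  have h2 : ∀ᶠ t in 𝓝 (0:ℝ), DifferentiableAt ℝ w (x + t • v) := by
    have : Tendsto (fun t : ℝ => x + t • v) (𝓝 0) (𝓝 x) := by
      simpa using hline.tendsto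
    exact this.eventually h1
  have h3 : deriv (fun t : ℝ => w (x + t • v)) =ᶠ[𝓝 0] fun t => fderiv ℝ w (x + t • v) v := by
    filter_upwards [h2] with t ht
    exact (ht.hasFDerivAt.comp_hasDerivAt t (hasDerivAt_line x v t)).deriv
  rw [h3.deriv_eq]
  have h4 : DifferentiableAt ℝ (fderiv ℝ w) x :=
    (hw.fderiv_right (m := 1) (by norm_num)).differentiableAt (by norm_num)
  have h5 : HasDerivAt (fun t : ℝ => fderiv ℝ w (x + t • v)) (fderiv ℝ (fderiv ℝ w) x v) 0 := by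
    have h : HasFDerivAt (fderiv ℝ w) (fderiv ℝ (fderiv ℝ w) x) (x + (0:ℝ) • v) := by
      have hx : x + (0:ℝ) • v = x := by simp
      rw [hx]
      exact h4.hasFDerivAt
    exact h.comp_hasDerivAt (0:ℝ) (hasDerivAt_line x v 0)
  have h6 : HasDerivAt (fun t : ℝ => fderiv ℝ w (x + t • v) v) (fderiv ℝ (fderiv ℝ w) x v v) 0 := by
    have := h5.clm_apply (hasDerivAt_const (0:ℝ) v)
    simpa using this
  exact h6.deriv.symm

end line



/-- Second derivative test, necessary condition. -/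
theorem deriv2_nonneg_of_isLocalMin (h : ℝ → ℝ) (hmin : IsLocalMin h 0)
    (hc : ContinuousAt h 0) : 0 ≤ deriv (deriv h) 0 := by
  by_contra hneg0
  have hneg := not_le.mp hneg0
  have hd0 : deriv h 0 = 0 := hmin.deriv_eq_zero
  have hmax : IsLocalMax h 0 := isLocalMax_of_deriv_deriv_neg hneg hd0 hc
  have hconst : h =ᶠ[𝓝 0] fun _ => h 0 := by
    filter_upwards [hmin, hmax] with t h1 h2
    exact le_antisymm h2 h1
  have h1 : deriv h =ᶠ[𝓝 0] fun _ => 0 := by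
    have := hconst.deriv
    simpa using this
  have h2 : deriv (deriv h) 0 = 0 := by
    rw [h1.deriv_eq]; simp
  linarith

/-- The one-variable computation behind the Laplacian of a log-polynomial radial function. -/
theorem deriv2_logpoly (s a α β γ : ℝ) (hs : 0 < s) :
    deriv (deriv (fun t : ℝ => α * Real.log (s + 2 * a * t + t ^ 2)
      + β * (Real.log (s + 2 * a * t + t ^ 2)) ^ 2 + γ)) 0
    = 2 * β * (2 * a) ^ 2 / s ^ 2 + (α + 2 * β * Real.log s) * (2 * s - 4 * a ^ 2) / s ^ 2 := by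
  set q : ℝ → ℝ := fun t => s + 2 * a * t + t ^ 2 with hq
  have hqd : ∀ t, HasDerivAt q (2 * a + 2 * t) t := by
    intro t
    have h1 : HasDerivAt (fun t : ℝ => 2 * a * t) (2 * a) t := by
      simpa using (hasDerivAt_id t).const_mul (2 * a)
    have h2 : HasDerivAt (fun t : ℝ => t ^ 2) (2 * t) t := by
      simpa using hasDerivAt_pow 2 t
    exact (((hasDerivAt_const t s).fun_add h1).fun_add h2).congr_deriv (by ring)
  have hqc : Continuous q := by rw [hq]; fun_prop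
  have hq0 : q 0 = s := by simp [hq]
  have hpos : ∀ᶠ t in 𝓝 (0:ℝ), 0 < q t := by
    have : Tendsto q (𝓝 0) (𝓝 (q 0)) := hqc.continuousAt.tendsto
    rw [hq0] at this
    exact this.eventually (lt_mem_nhds hs)
  have hlog : ∀ t, 0 < q t → HasDerivAt (fun t => Real.log (q t)) ((2 * a + 2 * t) / q t) t := by
    intro t ht
    exact (hqd t).log ht.ne'
  have hF : ∀ t, 0 < q t → HasDerivAt (fun t : ℝ => α * Real.log (q t)
      + β * (Real.log (q t)) ^ 2 + γ)
      ((α + 2 * β * Real.log (q t)) * ((2 * a + 2 * t) / q t)) t := by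
    intro t ht
    have h1 := (hlog t ht).const_mul α
    have h2 := ((hlog t ht).fun_pow 2).const_mul β
    have h3 := (h1.fun_add h2).add_const γ
    refine h3.congr_deriv ?_
    simp only [Nat.cast_ofNat]
    ring
  have hev : deriv (fun t : ℝ => α * Real.log (q t) + β * (Real.log (q t)) ^ 2 + γ)
      =ᶠ[𝓝 0] fun t => (α + 2 * β * Real.log (q t)) * ((2 * a + 2 * t) / q t) := by
    filter_upwards [hpos] with t ht
    exact (hF t ht).deriv
  rw [hev.deriv_eq]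
  have hs' : q 0 ≠ 0 := by rw [hq0]; exact hs.ne'
  have hA : HasDerivAt (fun t => α + 2 * β * Real.log (q t)) (2 * β * ((2 * a + 2 * 0) / q 0)) 0 := by
    have := ((hlog 0 (by rw [hq0]; exact hs)).const_mul (2 * β)).const_add α
    simpa using this
  have hB : HasDerivAt (fun t => (2 * a + 2 * t) / q t)
      ((2 * q 0 - (2 * a + 2 * 0) * (2 * a + 2 * 0)) / (q 0) ^ 2) 0 := by
    have h1 : HasDerivAt (fun t : ℝ => 2 * a + 2 * t) 2 0 := by
      simpa using ((hasDerivAt_id (0:ℝ)).const_mul 2).const_add (2 * a)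
    exact h1.div (hqd 0) hs'
  have hprod := hA.fun_mul hB
  rw [hprod.deriv]
  rw [hq0]
  field_simp
  ring

section lap
variable {E : Type*} [NormedAddCommGroup E] [InnerProductSpace ℝ E] [FiniteDimensional ℝ E]

theorem laplacian_nonneg_of_isLocalMin (w : E → ℝ) (x : E) (hw : ContDiffAt ℝ 2 w x)
    (hmin : IsLocalMin w x) : 0 ≤ Laplacian.laplacian w x := by
  rw [InnerProductSpace.laplacian_eq_iteratedFDeriv_stdOrthonormalBasis]
  apply Finset.sum_nonneg
  intro i _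
  rw [iteratedFDeriv_two_line w x _ hw]
  have hc : ContinuousAt (fun t : ℝ => x + t • (stdOrthonormalBasis ℝ E) i) 0 := by fun_prop
  have hx0 : x + (0:ℝ) • (stdOrthonormalBasis ℝ E) i = x := by simp
  apply deriv2_nonneg_of_isLocalMin
  · have : IsLocalMin w (x + (0:ℝ) • (stdOrthonormalBasis ℝ E) i) := by rw [hx0]; exact hmin
    exact IsLocalMin.comp_continuous (g := fun t : ℝ => x + t • (stdOrthonormalBasis ℝ E) i)
      (b := 0) this hc
  · have : ContinuousAt w (x + (0:ℝ) • (stdOrthonormalBasis ℝ E) i) := by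
      rw [hx0]; exact hw.continuousAt
    exact ContinuousAt.comp (g := w) (f := fun t : ℝ => x + t • (stdOrthonormalBasis ℝ E) i)
      (x := 0) this hc

omit [FiniteDimensional ℝ E] in
theorem contDiffAt_logpoly (α β γ : ℝ) (x : E) (hx : x ≠ 0) :
    ContDiffAt ℝ 2 (fun y : E => α * Real.log (‖y‖ ^ 2) + β * (Real.log (‖y‖ ^ 2)) ^ 2 + γ) x := by
  have hN : ContDiffAt ℝ 2 (fun y : E => ‖y‖ ^ 2) x := (contDiff_norm_sq ℝ).contDiffAt
  have hx2 : ‖x‖ ^ 2 ≠ 0 := by positivity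
  have hlog : ContDiffAt ℝ 2 (fun y : E => Real.log (‖y‖ ^ 2)) x := hN.log hx2
  exact ((contDiffAt_const.mul hlog).add (contDiffAt_const.mul (hlog.pow 2))).add contDiffAt_const

theorem laplacian_logpoly {ι : Type*} [Fintype ι] (b : OrthonormalBasis ι ℝ E) (α β γ : ℝ)
    (x : E) (hx : x ≠ 0) :
    Laplacian.laplacian
      (fun y : E => α * Real.log (‖y‖ ^ 2) + β * (Real.log (‖y‖ ^ 2)) ^ 2 + γ) x
    = ((2 * (Fintype.card ι : ℝ) - 4) * α + 8 * β
        + (4 * (Fintype.card ι : ℝ) - 8) * β * Real.log (‖x‖ ^ 2)) / ‖x‖ ^ 2 := by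
  rw [InnerProductSpace.laplacian_eq_iteratedFDeriv_orthonormalBasis _ b]
  have hs : 0 < ‖x‖ ^ 2 := by positivity
  have hterm : ∀ i, iteratedFDeriv ℝ 2
      (fun y : E => α * Real.log (‖y‖ ^ 2) + β * (Real.log (‖y‖ ^ 2)) ^ 2 + γ) x ![b i, b i]
      = 2 * β * (2 * inner ℝ x (b i)) ^ 2 / (‖x‖ ^ 2) ^ 2
        + (α + 2 * β * Real.log (‖x‖ ^ 2)) * (2 * ‖x‖ ^ 2 - 4 * (inner ℝ x (b i)) ^ 2)
          / (‖x‖ ^ 2) ^ 2 := by
    intro i
    rw [iteratedFDeriv_two_line _ x (b i) (contDiffAt_logpoly α β γ x hx)]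
    rw [← deriv2_logpoly (‖x‖ ^ 2) (inner ℝ x (b i)) α β γ hs]
    have hnorm : ∀ t : ℝ, ‖x + t • b i‖ ^ 2 = ‖x‖ ^ 2 + 2 * inner ℝ x (b i) * t + t ^ 2 := by
      intro t
      rw [norm_add_sq_real, real_inner_smul_right, norm_smul, b.norm_eq_one]
      simp only [Real.norm_eq_abs, mul_one, sq_abs]
      ring
    simp only [hnorm]
  have hsum : ∑ i, (inner ℝ x (b i)) ^ 2 = ‖x‖ ^ 2 := b.sum_sq_inner_left x
  have hterm2 : ∀ i, 2 * β * (2 * inner ℝ x (b i)) ^ 2 / (‖x‖ ^ 2) ^ 2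
        + (α + 2 * β * Real.log (‖x‖ ^ 2)) * (2 * ‖x‖ ^ 2 - 4 * (inner ℝ x (b i)) ^ 2)
          / (‖x‖ ^ 2) ^ 2
      = ((8 * β - 4 * (α + 2 * β * Real.log (‖x‖ ^ 2))) / (‖x‖ ^ 2) ^ 2) * (inner ℝ x (b i)) ^ 2
        + 2 * ‖x‖ ^ 2 * (α + 2 * β * Real.log (‖x‖ ^ 2)) / (‖x‖ ^ 2) ^ 2 := by
    intro i
    ring
  simp only [hterm, hterm2, Finset.sum_add_distrib, ← Finset.mul_sum, hsum, Finset.sum_const,
    Finset.card_univ, nsmul_eq_mul]
  field_simp
  ring

/-- Minimum principle for strict supersolutions. -/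
theorem comparison (K Ω : Set E) (hK : IsCompact K) (hΩ : IsOpen Ω) (hΩK : Ω ⊆ K)
    (w : E → ℝ) (hc : ContinuousOn w K)
    (hlap : ∀ y ∈ Ω, ContDiffAt ℝ 2 w y ∧ Laplacian.laplacian w y < 0)
    (hbd : ∀ y ∈ K, y ∉ Ω → 0 ≤ w y) : ∀ y ∈ K, 0 ≤ w y := by
  intro y hy
  by_contra hneg
  obtain ⟨y₁, hy₁, hmin⟩ := hK.exists_isMinOn ⟨y, hy⟩ hc
  have h1 : w y₁ < 0 := lt_of_le_of_lt (hmin hy) (not_le.mp hneg)
  have hy₁Ω : y₁ ∈ Ω := by
    by_contra h
    exact absurd (hbd y₁ hy₁ h) (not_le.mpr h1)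
  have hloc : IsLocalMin w y₁ := by
    have : ∀ᶠ z in 𝓝 y₁, z ∈ K := Filter.mem_of_superset (hΩ.mem_nhds hy₁Ω) hΩK
    filter_upwards [this] with z hz
    exact hmin hz
  have := laplacian_nonneg_of_isLocalMin w y₁ (hlap y₁ hy₁Ω).1 hloc
  linarith [(hlap y₁ hy₁Ω).2]

/-- Comparison with a log-polynomial radial barrier on an annulus. -/
theorem annulus_comparison {ι : Type*} [Fintype ι] (b : OrthonormalBasis ι ℝ E)
    (a c : ℝ) (ha : 0 < a) (u : E → ℝ) (α β γ : ℝ)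
    (hc : ContinuousOn u {y | a ≤ ‖y‖ ∧ ‖y‖ ≤ c})
    (hlap : ∀ y : E, a < ‖y‖ → ‖y‖ < c → ContDiffAt ℝ 2 u y ∧
      Laplacian.laplacian u y < ((2 * (Fintype.card ι : ℝ) - 4) * α + 8 * β
        + (4 * (Fintype.card ι : ℝ) - 8) * β * Real.log (‖y‖ ^ 2)) / ‖y‖ ^ 2)
    (hbd : ∀ y : E, (‖y‖ = a ∨ ‖y‖ = c) →
      α * Real.log (‖y‖ ^ 2) + β * (Real.log (‖y‖ ^ 2)) ^ 2 + γ ≤ u y) :
    ∀ y : E, a ≤ ‖y‖ → ‖y‖ ≤ c →
      α * Real.log (‖y‖ ^ 2) + β * (Real.log (‖y‖ ^ 2)) ^ 2 + γ ≤ u y := by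
  set φ : E → ℝ := fun y => α * Real.log (‖y‖ ^ 2) + β * (Real.log (‖y‖ ^ 2)) ^ 2 + γ with hφ
  set K : Set E := {y | a ≤ ‖y‖ ∧ ‖y‖ ≤ c} with hKdef
  set Ω : Set E := {y | a < ‖y‖ ∧ ‖y‖ < c} with hΩdef
  have hK : IsCompact K := by
    have h1 : K = Metric.closedBall (0 : E) c ∩ {y | a ≤ ‖y‖} := by
      ext y
      constructor
      · intro hy
        exact ⟨mem_closedBall_zero_iff.mpr hy.2, hy.1⟩
      · intro hy
        exact ⟨hy.2, mem_closedBall_zero_iff.mp hy.1⟩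
    rw [h1]
    apply (isCompact_closedBall (0 : E) c).inter_right
    exact isClosed_le continuous_const continuous_norm
  have hΩ : IsOpen Ω := by
    have h1 : Ω = {y | a < ‖y‖} ∩ {y | ‖y‖ < c} := by
      ext y
      constructor
      · intro hy
        exact ⟨hy.1, hy.2⟩
      · intro hy
        exact ⟨hy.1, hy.2⟩
    rw [h1]
    exact (isOpen_lt continuous_const continuous_norm).inter
      (isOpen_lt continuous_norm continuous_const)
  have hΩK : Ω ⊆ K := fun y hy => ⟨hy.1.le, hy.2.le⟩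
  have hne : ∀ y ∈ K, y ≠ 0 := by
    intro y hy h0
    have h1 : a ≤ ‖y‖ := hy.1
    rw [h0, norm_zero] at h1
    exact absurd h1 (not_le.mpr ha)
  have hφc : ContinuousOn φ K := fun y hy =>
    (contDiffAt_logpoly α β γ y (hne y hy)).continuousAt.continuousWithinAt
  have hw := comparison K Ω hK hΩ hΩK (u - φ) (hc.sub hφc) ?_ ?_
  · intro y hy1 hy2
    have := hw y ⟨hy1, hy2⟩
    simp only [Pi.sub_apply, sub_nonneg] at this
    exact this
  · intro y hy
    obtain ⟨h1, h2⟩ := hlap y hy.1 hy.2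
    have hy0 : y ≠ 0 := hne y (hΩK hy)
    have h3 := contDiffAt_logpoly α β γ y hy0
    refine ⟨h1.sub h3, ?_⟩
    rw [h1.laplacian_sub h3, laplacian_logpoly b α β γ y hy0]
    linarith
  · intro y hy hyΩ
    have : ‖y‖ = a ∨ ‖y‖ = c := by
      by_contra hcon
      push Not at hcon
      exact hyΩ ⟨lt_of_le_of_ne hy.1 (Ne.symm hcon.1), lt_of_le_of_ne hy.2 hcon.2⟩
    have := hbd y this
    simp only [Pi.sub_apply, sub_nonneg]
    exact this

end lap

end Vale.Agent.Lib.P100
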