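import Vale.Agent.Lib.P100.Barrier

namespace Vale.Agent.Lib.P100

open Filter Topology

/-- Singular weight: if the weight exponent A is at most -2 there is no positive solution
continuous at the origin, in any dimension n at least 2. -/
theorem no_solution_singular_weight (n : ℕ) (hn : 2 ≤ n) (p A : ℝ) (hp : 0 < p) (hA : A ≤ -2)
    (u v : EuclideanSpace ℝ (Fin n) → ℝ)
    (hu : Continuous u) (hv : Continuous v)
    (hupos : ∀ x, 0 < u x) (hvpos : ∀ x, 0 < v x)
    (hu2 : ContDiffOn ℝ 2 u {0}ᶜ)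
    (heq : ∀ x, x ≠ 0 → -(Laplacian.laplacian u x) = ‖x‖ ^ A * (v x) ^ p) : False := by
  have hB : IsCompact (Metric.closedBall (0 : EuclideanSpace ℝ (Fin n)) 1) :=
    isCompact_closedBall 0 1
  have hBne : (Metric.closedBall (0 : EuclideanSpace ℝ (Fin n)) 1).Nonempty := ⟨0, by simp⟩
  obtain ⟨y₀, -, hy₀⟩ := hB.exists_isMinOn hBne hv.continuousOn
  obtain ⟨y₂, -, hy₂⟩ := hB.exists_isMaxOn hBne hu.continuousOn
  set c := (v y₀) ^ p with hcdef
  have hcpos : 0 < c := Real.rpow_pos_of_pos (hvpos y₀) p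
  set M := u y₂ with hMdef
  have hMpos : 0 < M := hupos y₂
  have hvc : ∀ y : EuclideanSpace ℝ (Fin n), ‖y‖ ≤ 1 → c ≤ (v y) ^ p := by
    intro y hy
    exact Real.rpow_le_rpow (hvpos y₀).le (hy₀ (mem_closedBall_zero_iff.mpr hy)) hp.le
  have huM : ∀ y : EuclideanSpace ℝ (Fin n), ‖y‖ ≤ 1 → u y ≤ M :=
    fun y hy => hy₂ (mem_closedBall_zero_iff.mpr hy)
  have hnpos : (0:ℝ) < n := by exact_mod_cast (by omega : 0 < n)
  have hn2 : (2:ℝ) ≤ n := by exact_mod_cast hn
  set κ := c / (2 * n) with hκ
  have hκpos : 0 < κ := by positivity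
  set T := 4 * M / κ + 1 with hT
  have hT1 : 1 ≤ T := by
    have : 0 ≤ 4 * M / κ := by positivity
    linarith
  have hTpos : 0 < T := by linarith
  have hcard : (Fintype.card (Fin n) : ℝ) = n := by simp
  have key := annulus_comparison (EuclideanSpace.basisFun (Fin n) ℝ) (Real.exp (-T)) 1
    (Real.exp_pos _) u (-κ / 2) (-κ / (4 * T)) 0 hu.continuousOn ?_ ?_
  · -- evaluate at a point of norm exp (-T/2)
    let e : EuclideanSpace ℝ (Fin n) := EuclideanSpace.single (⟨0, by omega⟩ : Fin n) (1:ℝ)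
    have he : ‖e‖ = 1 := by simp [e]
    let y₁ : EuclideanSpace ℝ (Fin n) := Real.exp (-T / 2) • e
    have hy₁ : ‖y₁‖ = Real.exp (-T / 2) := by
      simp [y₁, norm_smul, he, abs_of_pos (Real.exp_pos _)]
    have h1 := key y₁ (by rw [hy₁]; exact Real.exp_le_exp.mpr (by linarith))
      (by rw [hy₁]; exact Real.exp_le_one_iff.mpr (by linarith))
    have hlog : Real.log (‖y₁‖ ^ 2) = -T := by
      rw [hy₁, ← Real.exp_nat_mul, Real.log_exp]
      push_cast
      ring
    rw [hlog] at h1
    have h2 := huM y₁ (by rw [hy₁]; exact Real.exp_le_one_iff.mpr (by linarith))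
    have h3 : -κ / 2 * (-T) + -κ / (4 * T) * (-T) ^ 2 + 0 = κ * T / 4 := by
      field_simp
      ring
    rw [h3] at h1
    have h4 : κ * T / 4 = M + κ / 4 := by
      rw [hT]
      field_simp
    linarith
  · -- the Laplacian inequality
    intro y hy1 hy2
    have hy0 : y ≠ 0 := by
      intro h0
      rw [h0, norm_zero] at hy1
      exact absurd hy1 (not_lt.mpr (Real.exp_pos _).le)
    have hypos : 0 < ‖y‖ := norm_pos_iff.mpr hy0
    refine ⟨hu2.contDiffAt (isOpen_compl_singleton.mem_nhds hy0), ?_⟩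
    have hE := heq y hy0
    have hy2pos : 0 < ‖y‖ ^ 2 := by positivity
    have hL : Real.log (‖y‖ ^ 2) < 0 := by
      apply Real.log_neg hy2pos
      nlinarith
    have hrp : ‖y‖ ^ (-2 : ℝ) ≤ ‖y‖ ^ A := Real.rpow_le_rpow_of_exponent_ge hypos hy2.le hA
    have hrp2 : ‖y‖ ^ (-2 : ℝ) = 1 / ‖y‖ ^ 2 := by
      rw [Real.rpow_neg hypos.le, Real.rpow_two, one_div]
    have hlapu : Laplacian.laplacian u y ≤ -(c / ‖y‖ ^ 2) := by
      have h1 : c / ‖y‖ ^ 2 ≤ ‖y‖ ^ A * (v y) ^ p := by
        calc c / ‖y‖ ^ 2 = ‖y‖ ^ (-2 : ℝ) * c := by rw [hrp2]; ring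
          _ ≤ ‖y‖ ^ A * (v y) ^ p :=
            mul_le_mul hrp (hvc y hy2.le) hcpos.le (Real.rpow_nonneg hypos.le _)
      linarith
    rw [hcard]
    have hnum : -(c / 2) ≤ (2 * (n:ℝ) - 4) * (-κ / 2) + 8 * (-κ / (4 * T))
        + (4 * (n:ℝ) - 8) * (-κ / (4 * T)) * Real.log (‖y‖ ^ 2) := by
      have h1 : 0 ≤ (4 * (n:ℝ) - 8) * (-κ / (4 * T)) * Real.log (‖y‖ ^ 2) := by
        have : (4 * (n:ℝ) - 8) * (-κ / (4 * T)) ≤ 0 := by
          apply mul_nonpos_of_nonneg_of_nonpos (by linarith)
          apply div_nonpos_of_nonpos_of_nonneg (by linarith) (by linarith)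
        exact mul_nonneg_of_nonpos_of_nonpos this hL.le
      have h2 : -(2 * κ) ≤ 8 * (-κ / (4 * T)) := by
        have h21 : κ / T ≤ κ := div_le_self hκpos.le hT1
        have h22 : 8 * (-κ / (4 * T)) = -(2 * (κ / T)) := by
          field_simp
          ring
        rw [h22]
        linarith
      have h3 : c = 2 * n * κ := by
        rw [hκ]
        field_simp
      rw [h3]
      nlinarith
    calc Laplacian.laplacian u y ≤ -(c / ‖y‖ ^ 2) := hlapu
      _ < -(c / 2) / ‖y‖ ^ 2 := by
        rw [neg_div, neg_lt_neg_iff]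
        exact div_lt_div_of_pos_right (by linarith) hy2pos
      _ ≤ _ := div_le_div_of_nonneg_right hnum hy2pos.le
  · -- the boundary spheres
    intro y hy
    rcases hy with hy | hy
    · have hlog : Real.log (‖y‖ ^ 2) = -(2 * T) := by
        rw [hy, ← Real.exp_nat_mul, Real.log_exp]
        push_cast
        ring
      rw [hlog]
      have h0 : -κ / 2 * -(2 * T) + -κ / (4 * T) * (-(2 * T)) ^ 2 + 0 = 0 := by
        field_simp
        ring
      rw [h0]
      exact (hupos y).le
    · have hlog : Real.log (‖y‖ ^ 2) = 0 := by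
        rw [hy]
        simp
      rw [hlog]
      simpa using (hupos y).le

/-- In the plane there is no positive continuous function that is strictly superharmonic
away from the origin. -/
theorem no_superharmonic_plane (u : EuclideanSpace ℝ (Fin 2) → ℝ)
    (hu : Continuous u) (hupos : ∀ x, 0 < u x) (hu2 : ContDiffOn ℝ 2 u {0}ᶜ)
    (hlap : ∀ x, x ≠ 0 → Laplacian.laplacian u x < 0) : False := by
  have hS : IsCompact (Metric.sphere (0 : EuclideanSpace ℝ (Fin 2)) 1) := isCompact_sphere 0 1
  let e : EuclideanSpace ℝ (Fin 2) := EuclideanSpace.single (0 : Fin 2) (1:ℝ)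
  have he : ‖e‖ = 1 := by simp [e]
  have hSne : (Metric.sphere (0 : EuclideanSpace ℝ (Fin 2)) 1).Nonempty := ⟨e, by simp [he]⟩
  obtain ⟨x₀, hx₀S, hx₀⟩ := hS.exists_isMinOn hSne hu.continuousOn
  set m := u x₀ with hm
  have hmpos : 0 < m := hupos x₀
  have hx₀n : ‖x₀‖ = 1 := by simpa using hx₀S
  have hx₀0 : x₀ ≠ 0 := by
    intro h
    rw [h, norm_zero] at hx₀n
    norm_num at hx₀n
  have hcd : ∀ y : EuclideanSpace ℝ (Fin 2), y ≠ 0 → ContDiffAt ℝ 2 u y :=
    fun y hy => hu2.contDiffAt (isOpen_compl_singleton.mem_nhds hy)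
  have hclaim : ∀ x : EuclideanSpace ℝ (Fin 2), x ≠ 0 → m ≤ u x := by
    intro x hx
    by_contra hlt
    have hlt' : u x < m := not_le.mp hlt
    set r := ‖x‖ with hr
    have hrpos : 0 < r := norm_pos_iff.mpr hx
    have hr1 : r ≠ 1 := by
      intro h1
      exact hlt (hx₀ (by simp [← hr, h1] : x ∈ Metric.sphere (0 : EuclideanSpace ℝ (Fin 2)) 1))
    have hlogr : Real.log r ≠ 0 := by
      intro h
      rcases Real.log_eq_zero.mp h with h | h | h
      · linarith
      · exact hr1 h
      · linarith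
    have hmu : 0 < m - u x := by linarith
    obtain ⟨k, hk⟩ := exists_nat_gt (m / (m - u x))
    have hkpos : (0:ℝ) < k := lt_of_le_of_lt (by positivity) hk
    have hk1 : 1 ≤ k := by
      have : 0 < k := by exact_mod_cast hkpos
      omega
    have hρpos : 0 < r ^ k := pow_pos hrpos k
    have key := annulus_comparison (EuclideanSpace.basisFun (Fin 2) ℝ) (min 1 (r ^ k))
      (max 1 (r ^ k)) (lt_min one_pos hρpos) u (-m / (2 * k * Real.log r)) 0 m
      hu.continuousOn ?_ ?_
    · have h1 := key x ?_ ?_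
      · have hlogx : Real.log (‖x‖ ^ 2) = 2 * Real.log r := by
          rw [Real.log_pow]
          push_cast
          rfl
        rw [hlogx] at h1
        have h2 : -m / (2 * k * Real.log r) * (2 * Real.log r) + 0 * (2 * Real.log r) ^ 2 + m
            = m - m / k := by
          field_simp
          ring
        rw [h2] at h1
        have h3 : m / k < m - u x := by
          rw [div_lt_iff₀ hkpos]
          have := (div_lt_iff₀ hmu).mp hk
          linarith
        linarith
      · rcases lt_or_gt_of_ne hr1 with h | h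
        · exact (min_le_right _ _).trans (pow_le_of_le_one hrpos.le h.le (by omega))
        · exact (min_le_left _ _).trans h.le
      · rcases lt_or_gt_of_ne hr1 with h | h
        · exact h.le.trans (le_max_left _ _)
        · exact (le_self_pow₀ h.le (by omega)).trans (le_max_right _ _)
    · intro y hy1 hy2
      have hy0 : y ≠ 0 := by
        intro h0
        rw [h0, norm_zero] at hy1
        exact absurd hy1 (not_lt.mpr (lt_min one_pos hρpos).le)
      refine ⟨hcd y hy0, ?_⟩
      have hcard : (Fintype.card (Fin 2) : ℝ) = 2 := by simp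
      rw [hcard]
      have := hlap y hy0
      have h0 : ((2 * (2:ℝ) - 4) * (-m / (2 * k * Real.log r)) + 8 * 0
          + (4 * (2:ℝ) - 8) * 0 * Real.log (‖y‖ ^ 2)) / ‖y‖ ^ 2 = 0 := by
        norm_num
      rw [h0]
      exact this
    · intro y hy
      have hy' : ‖y‖ = 1 ∨ ‖y‖ = r ^ k := by
        rcases hy with hy | hy
        · rcases min_choice 1 (r ^ k) with h | h
          · left; rw [hy, h]
          · right; rw [hy, h]
        · rcases max_choice 1 (r ^ k) with h | h
          · left; rw [hy, h]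
          · right; rw [hy, h]
      rcases hy' with hy | hy
      · have hlog : Real.log (‖y‖ ^ 2) = 0 := by
          rw [hy]
          simp
        rw [hlog]
        have : m ≤ u y := hx₀ (by simp [hy] : y ∈ Metric.sphere (0 : EuclideanSpace ℝ (Fin 2)) 1)
        simpa using this
      · have hlog : Real.log (‖y‖ ^ 2) = 2 * (k * Real.log r) := by
          rw [hy, Real.log_pow, Real.log_pow]
          push_cast
          ring
        rw [hlog]
        have h0 : -m / (2 * k * Real.log r) * (2 * (k * Real.log r))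
            + 0 * (2 * (k * Real.log r)) ^ 2 + m = 0 := by
          field_simp
          ring
        rw [h0]
        exact (hupos y).le
  have hloc : IsLocalMin u x₀ := by
    have : ∀ᶠ z in 𝓝 x₀, z ≠ 0 := isOpen_compl_singleton.mem_nhds hx₀0
    filter_upwards [this] with z hz
    exact hclaim z hz
  have := laplacian_nonneg_of_isLocalMin u x₀ (hcd x₀ hx₀0) hloc
  linarith [hlap x₀ hx₀0]

/-- The degenerate parameter ranges of the Henon-Lane-Emden problem: no positive entire
solution when n = 2 or one of the weight exponents is at most -2. -/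
theorem no_solution_degenerate (n : ℕ) (hn : 2 ≤ n) (p q A B : ℝ) (hp : 0 < p) (hq : 0 < q)
    (hdeg : n = 2 ∨ A ≤ -2 ∨ B ≤ -2)
    (u v : EuclideanSpace ℝ (Fin n) → ℝ)
    (hu : Continuous u) (hv : Continuous v)
    (hu2 : ContDiffOn ℝ 2 u {0}ᶜ) (hv2 : ContDiffOn ℝ 2 v {0}ᶜ)
    (hupos : ∀ x, 0 < u x) (hvpos : ∀ x, 0 < v x)
    (h1 : ∀ x, x ≠ 0 → -(Laplacian.laplacian u x) = ‖x‖ ^ A * (v x) ^ p)
    (h2 : ∀ x, x ≠ 0 → -(Laplacian.laplacian v x) = ‖x‖ ^ B * (u x) ^ q) : False := by
  rcases hdeg with h | h | h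
  · subst h
    apply no_superharmonic_plane u hu hupos hu2
    intro x hx
    have hpos : 0 < ‖x‖ ^ A * (v x) ^ p :=
      mul_pos (Real.rpow_pos_of_pos (norm_pos_iff.mpr hx) A) (Real.rpow_pos_of_pos (hvpos x) p)
    have := h1 x hx
    linarith
  · exact no_solution_singular_weight n hn p A hp h u v hu hv hupos hvpos hu2 h1
  · exact no_solution_singular_weight n hn q B hq h v u hv hu hvpos hupos hv2 h2

end Vale.Agent.Lib.P100
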